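import Crest.Agent.N255.Wv.Var

/-!
# Row 255 (helper84): the zones of a wall and the flat family of wall variables
-/

set_option autoImplicit false
open Set

noncomputable section

namespace Crest.Agent.N255.Wz

open Tp Wn

/-- nested levels -/
structure Lr (l r : ℕ → ℝ) : Prop where
  ml : StrictMono l
  ar : StrictAnti r
  lt : ∀ m n, l m < r n

/-- lower end of the zone `z` -/
def za (l r : ℕ → ℝ) (n z : ℕ) : ℝ := if z ≤ n then l z else r (2 * n + 2 - z)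

/-- upper end of the zone `z` -/
def zb (l r : ℕ → ℝ) (n z : ℕ) : ℝ := if z < n then l (z + 2) else r (2 * n - z)

/-- the zones of the window `k` -/
def Tw (n k : ℕ) : Set ℕ := {z | k ≤ z ∧ z + k ≤ 2 * n}

variable {l r l' r' : ℕ → ℝ} {n z z' m m' : ℕ}

theorem za_le (h : z ≤ n) : za l r n z = l z := if_pos h

theorem za_gt (h : n < z) : za l r n z = r (2 * n + 2 - z) := if_neg (by omega)

theorem zb_lt (h : z < n) : zb l r n z = l (z + 2) := if_pos h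

theorem zb_ge (h : n ≤ z) : zb l r n z = r (2 * n - z) := if_neg (by omega)

theorem Tw_anti (n : ℕ) : Antitone (Tw n) := fun _ _ h _ hz => ⟨h.trans hz.1, by have := hz.2; omega⟩

theorem mem_Tw0 : z ∈ Tw n 0 ↔ z ≤ 2 * n := by simp [Tw]

theorem Tw_le (h : z ∈ Tw n m) : z ≤ 2 * n := by have := h.2; omega

theorem Tw_rev (h : z ∈ Tw n m) : 2 * n - z ∈ Tw n m := ⟨by have := h.2; omega, by
  have := h.1; have := h.2; omega⟩


theorem za_rev (hl : ∀ m, l' m = 1 - r m) (hr : ∀ m, r' m = 1 - l m) (h : z ≤ 2 * n) :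
    za l' r' n z = 1 - zb l r n (2 * n - z) := by
  by_cases hz : z ≤ n
  · rw [za_le hz, zb_ge (by omega), hl]; congr 2; omega
  · rw [za_gt (by omega), zb_lt (by omega), hr]; congr 2; omega

theorem zb_rev (hl : ∀ m, l' m = 1 - r m) (hr : ∀ m, r' m = 1 - l m) (h : z ≤ 2 * n) :
    zb l' r' n z = 1 - za l r n (2 * n - z) := by
  by_cases hz : z < n
  · rw [zb_lt hz, za_gt (by omega), hl]; congr 2; omega
  · rw [zb_ge (by omega), za_le (by omega), hr]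

namespace Lr
variable (h : Lr l r)
include h

theorem rev (hl : ∀ m, l' m = 1 - r m) (hr : ∀ m, r' m = 1 - l m) : Lr l' r' :=
  ⟨fun a b e => by have := h.ar e; rw [hl, hl]; linarith,
    fun a b e => by have := h.ml e; rw [hr, hr]; linarith,
    fun a b => by have := h.lt b a; rw [hl, hr]; linarith⟩

theorem l_le (e : m ≤ m') : l m ≤ l m' := h.ml.monotone e

theorem r_le (e : m ≤ m') : r m' ≤ r m := h.ar.antitone e

theorem za_mono (e : z ≤ z') : za l r n z ≤ za l r n z' := by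
  unfold za; split_ifs
  exacts [h.l_le e, (h.lt _ _).le, by omega, h.r_le (by omega)]

theorem zb_mono (e : z ≤ z') : zb l r n z ≤ zb l r n z' := by
  unfold zb; split_ifs
  exacts [h.l_le (by omega), (h.lt _ _).le, by omega, h.r_le (by omega)]



/-- consecutive zones overlap -/
theorem za_succ_lt (e : z < 2 * n) : za l r n (z + 1) < zb l r n z := by
  unfold za zb; split_ifs
  exacts [h.ml (by omega), by omega, by omega, h.ar (by omega)]


/-- the other zones are disjoint -/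
theorem zb_le_za (e : z + 2 ≤ z') (e' : z' ≤ 2 * n) : zb l r n z ≤ za l r n z' := by
  unfold za zb; split_ifs
  exacts [h.l_le e, (h.lt _ _).le, by omega, h.r_le (by omega)]

theorem le_za (e : z ∈ Tw n m) (hm : m ≤ n) : l m ≤ za l r n z :=
  (za_le (r := r) hm).symm.le.trans (h.za_mono e.1)

theorem zb_le (e : z ∈ Tw n m) (hm : m ≤ n) : zb l r n z ≤ r m := by
  have := e.2
  refine (h.zb_mono (z' := 2 * n - m) (by omega)).trans ?_
  rw [zb_ge (by omega)]; exact h.r_le (by omega)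

omit h in
theorem step {t : ℝ} (h1 : l m < t) : ∀ j, m ≤ j → t ≤ l j → ∃ z, m ≤ z ∧ z < j ∧ l z < t ∧ t ≤ l (z + 1) := by
  intro j hj
  induction j, hj using Nat.le_induction with
  | base => exact fun e => absurd h1 e.not_gt
  | succ j hj ih =>
    intro e
    by_cases c : t ≤ l j
    · obtain ⟨z, a, b, d⟩ := ih c
      exact ⟨z, a, by omega, d⟩
    · exact ⟨j, hj, by omega, not_le.1 c, e⟩

/-- the zones of a window cover it -/
theorem exists_zone (hm : m ≤ n) {t : ℝ} (h1 : l m < t) (h2 : t < r m) :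
    ∃ z ∈ Tw n m, za l r n z < t ∧ t < zb l r n z := by
  by_cases c : t ≤ l n
  · obtain ⟨z, a, b, d, e⟩ := step h1 n hm c
    exact ⟨z, ⟨a, by omega⟩, by rwa [za_le b.le], by
      rw [zb_lt b]; exact e.trans_lt (h.ml (by omega))⟩
  by_cases c' : r n ≤ t
  · obtain ⟨z, a, b, d, e⟩ := step (l := fun i => -r i) (t := -t) (neg_lt_neg h2) n hm (neg_le_neg c')
    refine ⟨2 * n - z, ⟨by omega, by omega⟩, ?_, ?_⟩
    · rw [za_gt (by omega), show 2 * n + 2 - (2 * n - z) = z + 2 by omega]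
      exact (h.ar (by omega)).trans_le (neg_le_neg_iff.1 e)
    · rw [zb_ge (by omega), show 2 * n - (2 * n - z) = z by omega]
      exact neg_lt_neg_iff.1 d
  · refine ⟨n, ⟨hm, by omega⟩, by rw [za_le le_rfl]; exact not_le.1 c, ?_⟩
    rw [zb_ge le_rfl, show 2 * n - n = n by omega]
    exact not_le.1 c'

end Lr

variable {X : Type} [TopologicalSpace X] {s s' : C(X, ℝ)} {𝒞 : Set (Set X)} {d : ℕ} {b : Bool}

theorem _root_.Crest.Agent.N255.Wv.Win.lr {k : Type} [Field k] {i : ℕ} (h : Wv.Win k i s l r) :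
    Lr l r := ⟨h.ml, h.ar, h.lt⟩

/-- the zone `z`: left annuli `z < n`, centre `z = n`, right annuli `n < z ≤ 2 n` -/
def zo (s : C(X, ℝ)) (l r : ℕ → ℝ) (n z : ℕ) : Set X := win s (za l r n z) (zb l r n z)

/-- the small simplices of a zone -/
def Zs (𝒞 : Set (Set X)) (s : C(X, ℝ)) (l r : ℕ → ℝ) (n z : ℕ) : Sb X :=
  (On (zo s l r n z)).inf (Sm 𝒞)

/-- the cover of a window by small pieces of zones -/
def cz (𝒞 : Set (Set X)) (s : C(X, ℝ)) (l r : ℕ → ℝ) (n m : ℕ) : Set (Set X) :=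
  {V | ∃ z ∈ Tw n m, ∃ U ∈ 𝒞, V = zo s l r n z ∩ U}

/-- the small simplices which lie in a zone of the window `m` -/
def Zw (𝒞 : Set (Set X)) (s : C(X, ℝ)) (l r : ℕ → ℝ) (n m : ℕ) : Sb X := Sm (cz 𝒞 s l r n m)

theorem isOpen_zo : IsOpen (zo s l r n z) := isOpen_win

theorem zo_lt (h : z < n) : zo s l r n z = win s (l z) (l (z + 2)) := by rw [zo, za_le h.le, zb_lt h]

theorem zo_mid : zo s l r n n = win s (l n) (r n) := by
  rw [zo, za_le le_rfl, zb_ge le_rfl, show 2 * n - n = n by omega]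

theorem zo_gt (h : z < n) : zo s l r n (2 * n - z) = win s (r (z + 2)) (r z) := by
  rw [zo, za_gt (by omega), zb_ge (by omega)]; congr 2 <;> omega

theorem zo_rev (hs : ∀ x, s' x = 1 - s x) (hl : ∀ m, l' m = 1 - r m) (hr : ∀ m, r' m = 1 - l m)
    (h : z ≤ 2 * n) : zo s' l' r' n z = zo s l r n (2 * n - z) := by
  ext x
  simp only [zo, win, mem_ofPred_eq, za_rev hl hr h, zb_rev hl hr h, hs]
  constructor <;> rintro ⟨a, b⟩ <;> constructor <;> linarith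

theorem Zs_rev (hs : ∀ x, s' x = 1 - s x) (hl : ∀ m, l' m = 1 - r m) (hr : ∀ m, r' m = 1 - l m)
    (h : z ≤ 2 * n) : Zs 𝒞 s' l' r' n z = Zs 𝒞 s l r n (2 * n - z) := by
  rw [Zs, Zs, zo_rev hs hl hr h]

theorem cz_rev (hs : ∀ x, s' x = 1 - s x) (hl : ∀ m, l' m = 1 - r m) (hr : ∀ m, r' m = 1 - l m) :
    cz 𝒞 s' l' r' n m = cz 𝒞 s l r n m := by
  ext V
  constructor <;> rintro ⟨z, hz, U, hU, rfl⟩
  · exact ⟨_, Tw_rev hz, U, hU, by rw [zo_rev hs hl hr (Tw_le hz)]⟩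
  · refine ⟨_, Tw_rev hz, U, hU, ?_⟩
    have := Tw_le hz
    rw [zo_rev hs hl hr (by omega), show 2 * n - (2 * n - z) = z by omega]

theorem Zw_rev (hs : ∀ x, s' x = 1 - s x) (hl : ∀ m, l' m = 1 - r m) (hr : ∀ m, r' m = 1 - l m) :
    Zw 𝒞 s' l' r' n m = Zw 𝒞 s l r n m := by rw [Zw, Zw, cz_rev hs hl hr]


theorem mem_Zw {σ : Sx d X} : σ ∈ (Zw 𝒞 s l r n m).S d ↔ ∃ z ∈ Tw n m, σ ∈ (Zs 𝒞 s l r n z).S d :=
  ⟨fun ⟨_, ⟨z, hz, U, hU, e⟩, h⟩ => ⟨z, hz, (e ▸ h).trans inter_subset_left, U, hU,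
      (e ▸ h).trans inter_subset_right⟩,
    fun ⟨z, hz, h, U, hU, h'⟩ => ⟨_, ⟨z, hz, U, hU, rfl⟩, subset_inter h h'⟩⟩

theorem Zs_le_Zw (h : z ∈ Tw n m) : (Zs 𝒞 s l r n z).Le (Zw 𝒞 s l r n m) :=
  fun _ _ hσ => mem_Zw.2 ⟨z, h, hσ⟩

theorem Zw_anti (h : m ≤ m') : (Zw 𝒞 s l r n m').Le (Zw 𝒞 s l r n m) := fun _ _ hσ =>
  let ⟨z, a, c⟩ := mem_Zw.1 hσ; mem_Zw.2 ⟨z, Tw_anti n h a, c⟩



theorem van_Zw {k A : Type} [CommRing k] [AddCommGroup A] [Module k A] {φ : Co A d X} :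
    φ ∈ (Zw 𝒞 s l r n m).van k A d ↔ ∀ z ∈ Tw n m, φ ∈ (Zs 𝒞 s l r n z).van k A d :=
  ⟨fun h _ hz => Sb.van_mono (Zs_le_Zw hz) h, fun h σ hσ =>
    let ⟨z, a, c⟩ := mem_Zw.1 hσ; h z a σ c⟩

theorem cz_op (ho : ∀ U ∈ 𝒞, IsOpen U) : ∀ V ∈ cz 𝒞 s l r n m, IsOpen V := by
  rintro _ ⟨z, -, U, hU, rfl⟩
  exact isOpen_zo.inter (ho U hU)

theorem Lr.zo_sub (h : Lr l r) (e : z ∈ Tw n m) (hm : m ≤ n) : zo s l r n z ⊆ win s (l m) (r m) :=
  win_mono (h.le_za e hm) (h.zb_le e hm)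

theorem Lr.cz_cov (h : Lr l r) (hc : univ ⊆ ⋃₀ 𝒞) (hm : m ≤ n) :
    win s (l m) (r m) ⊆ ⋃₀ cz 𝒞 s l r n m := fun x hx => by
  obtain ⟨z, a, c⟩ := h.exists_zone hm hx.1 hx.2
  obtain ⟨U, hU, e⟩ := hc (mem_univ x)
  exact ⟨_, ⟨z, a, U, hU, rfl⟩, c, e⟩

theorem Lr.iUnion_zo (h : Lr l r) (hm : m ≤ n) : ⋃ z ∈ Tw n m, zo s l r n z = win s (l m) (r m) := by
  refine Subset.antisymm (iUnion₂_subset fun _ e => h.zo_sub e hm) fun x hx => ?_
  obtain ⟨z, a, c⟩ := h.exists_zone (t := s x) hm hx.1 hx.2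
  exact mem_biUnion (t := fun z => zo s l r n z) a c

theorem Lr.Zw_le (h : Lr l r) (hm : m ≤ n) :
    (Zw 𝒞 s l r n m).Le ((On (win s (l m) (r m))).inf (Sm 𝒞)) := fun _ _ hσ =>
  let ⟨_, a, c⟩ := mem_Zw.1 hσ; ⟨c.1.trans (h.zo_sub a hm), c.2⟩



/-- the big sides: `true` = low side -/
def Bs (s : C(X, ℝ)) (l r : ℕ → ℝ) (b : Bool) (m : ℕ) : Set X := if b then lo s (r m) else hi s (l m)

/-- the small sides -/
def As (s : C(X, ℝ)) (l r : ℕ → ℝ) (b : Bool) (m : ℕ) : Set X := if b then lo s (l m) else hi s (r m)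

@[simp] theorem Bs_true : Bs s l r true m = lo s (r m) := rfl

@[simp] theorem Bs_false : Bs s l r false m = hi s (l m) := rfl

@[simp] theorem As_true : As s l r true m = lo s (l m) := rfl

@[simp] theorem As_false : As s l r false m = hi s (r m) := rfl



theorem Lr.Bs_anti (h : Lr l r) (e : m ≤ m') : Bs s l r b m' ⊆ Bs s l r b m := by
  cases b; exacts [hi_mono (h.l_le e), lo_mono (h.r_le e)]

theorem Lr.As_mono (h : Lr l r) (e : m ≤ m') : As s l r b m ⊆ As s l r b m' := by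
  cases b; exacts [hi_mono (h.r_le e), lo_mono (h.l_le e)]




theorem win_sub_Bs : win s (l m) (r m) ⊆ Bs s l r b m := by cases b; exacts [win_hi, win_lo]

theorem Bs_rev (hs : ∀ x, s' x = 1 - s x) (hl : ∀ m, l' m = 1 - r m) (hr : ∀ m, r' m = 1 - l m) :
    Bs s' l' r' (!b) m = Bs s l r b m := by
  cases b
  · show lo s' (r' m) = hi s (l m); rw [hr, Wv.lo_rev hs]
  · show hi s' (l' m) = lo s (r m); rw [hl, Wv.hi_rev hs]

theorem As_rev (hs : ∀ x, s' x = 1 - s x) (hl : ∀ m, l' m = 1 - r m) (hr : ∀ m, r' m = 1 - l m) :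
    As s' l' r' (!b) m = As s l r b m := by
  cases b
  · show lo s' (l' m) = hi s (r m); rw [hl, Wv.lo_rev hs]
  · show hi s' (r' m) = lo s (l m); rw [hr, Wv.hi_rev hs]










/-- the variables of a wall, of scale `< n`; `sd j = true`: the class lives on the low side -/
structure Wv (k : Type) [Field k] (s : C(X, ℝ)) (l r : ℕ → ℝ) (n : ℕ) (J : Type) [Fintype J] where
  sd : J → Bool
  sc : J → ℕ
  h : J → Co k 1 X
  sc_lt : ∀ j, sc j < n
  mem : ∀ j, h j ∈ ZP k (Bs s l r (sd j) (sc j + 1)) k 1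
  van : ∀ j m, m < sc j → h j ∈ (On (As s l r (sd j) m)).van k k 1
  span : ∀ b m, m < n → ∀ φ ∈ ZP k (Bs s l r b (m + 1)) k 1, ∃ x : J → k,
    (∀ j, x j ≠ 0 → sd j = b ∧ sc j ≤ m) ∧ φ - ∑ j, x j • h j ∈ BP k (Bs s l r b (m + 2)) k 1
  ind : ∀ b m (x : J → k), (∀ j, x j ≠ 0 → sd j = b ∧ sc j = m) →
    ∑ j, x j • h j ∈ BP k (Bs s l r b (m + 2)) k 1 → ∀ j, x j = 0

namespace Wv
variable {k : Type} [Field k] {J : Type} [Fintype J] (V : Wv k s l r n J)

/-- the cut class -/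
def ct (j : J) : Co k 1 X := N255.Wv.ct (Bs s l r (V.sd j) (V.sc j + 1)) (V.h j)


/-- the same wall seen from the other side -/
def rev (hs : ∀ x, s' x = 1 - s x) (hl : ∀ m, l' m = 1 - r m) (hr : ∀ m, r' m = 1 - l m) :
    Wv k s' l' r' n J where
  sd j := !V.sd j
  sc := V.sc
  h := V.h
  sc_lt := V.sc_lt
  mem j := by rw [Bs_rev hs hl hr]; exact V.mem j
  van j m e := by rw [As_rev hs hl hr]; exact V.van j m e
  span b m e := by
    have := V.span (!b) m e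
    rw [← Bs_rev hs hl hr, ← Bs_rev hs hl hr, Bool.not_not] at this
    intro φ hφ
    obtain ⟨x, a, c⟩ := this φ hφ
    exact ⟨x, fun j q => ⟨by rw [(a j q).1, Bool.not_not], (a j q).2⟩, c⟩
  ind b m x a c := by
    refine V.ind (!b) m x (fun j q => ⟨by rw [← (a j q).1, Bool.not_not], (a j q).2⟩) ?_
    rwa [← Bs_rev hs hl hr, Bool.not_not]

theorem rev_ct (hs : ∀ x, s' x = 1 - s x) (hl : ∀ m, l' m = 1 - r m) (hr : ∀ m, r' m = 1 - l m)
    (j : J) : (V.rev hs hl hr).ct j = V.ct j := by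
  show N255.Wv.ct (Bs s' l' r' (!V.sd j) (V.sc j + 1)) (V.h j) = _
  rw [Bs_rev hs hl hr]; rfl


end Wv

end Crest.Agent.N255.Wz

end
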