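import Crest.Agent.N255.Wz.Zo
import Crest.Agent.N255.Wv.Fam
import Crest.Agent.N255.Wn.Ph
import Crest.Agent.N255.Core.TypK
import Crest.Agent.N255.Ma.Wd
import Crest.Agent.N255.Le.Nf

-- ▼ part N255/Wz/Var
section

/-!
# Row 255 (helper84): cut classes of the flat family, independence, span, construction
-/

set_option autoImplicit false
open Set

noncomputable section

namespace Crest.Agent.N255.Wz

open Tp Wn Wi

variable {X Y : Type} [TopologicalSpace X] [TopologicalSpace Y] {s s' : C(X, ℝ)} {𝒞 : Set (Set X)}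
  {l r l' r' : ℕ → ℝ} {n z m : ℕ} {b : Bool} {k : Type} [Field k]

namespace Wv
variable {J : Type} [Fintype J] (V : Wv k s l r n J)

theorem h_Cc (j : J) : V.h j ∈ Cc k univ k 1 := (V.mem j).1

theorem ct_Cc (j : J) : V.ct j ∈ Cc k univ k 1 := N255.Wv.ct_Cc (V.h_Cc j)

theorem ct_sub (j : J) : V.ct j - V.h j ∈ (On (Bs s l r (V.sd j) (V.sc j + 1))).van k k 1 :=
  N255.Wv.ct_sub









variable (h : Lr l r)
include h










end Wv

section map
variable (φ : Y ≃ₜ X) {t : C(Y, ℝ)} (e : ∀ y, t y = s (φ y))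
include e


theorem lo_map (a : ℝ) : lo t a = φ ⁻¹' lo s a := by
  ext y; simp only [lo, mem_ofPred_eq, mem_preimage, e]

theorem hi_map (a : ℝ) : hi t a = φ ⁻¹' hi s a := by
  ext y; simp only [hi, mem_ofPred_eq, mem_preimage, e]


theorem Bs_map : Bs t l r b m = φ ⁻¹' Bs s l r b m := by
  cases b; exacts [hi_map φ e _, lo_map φ e _]

theorem As_map : As t l r b m = φ ⁻¹' As s l r b m := by
  cases b; exacts [hi_map φ e _, lo_map φ e _]

/-- transport along a homeomorphism -/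
def Wv.map {J : Type} [Fintype J] (V : Wv k s l r n J) : Wv k t l r n J where
  sd := V.sd
  sc := V.sc
  h j := pull k (φ : C(Y, X)) (V.h j)
  sc_lt := V.sc_lt
  mem j := N255.Wv.pull_ZP φ (fun _ hx => by rwa [Bs_map φ e] at hx) (V.mem j)
  van j m c := pull_mem (fun _ hx => by rwa [As_map φ e] at hx) (V.van j m c)
  span b m c a ha := by
    obtain ⟨x, h1, hx⟩ := V.span b m c _
      (N255.Wv.pull_ZP φ.symm (fun y hy => by simpa [Bs_map φ e] using hy) ha)
    refine ⟨x, h1, ?_⟩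
    simpa [N255.Wv.symm_pull] using N255.Wv.pull_BP φ (U' := Bs t l r b (m + 2))
      (fun _ hx => by rwa [Bs_map φ e] at hx) hx
  ind b m x c hx := V.ind b m x c (by
    simpa [N255.Wv.pull_symm] using N255.Wv.pull_BP φ.symm (U' := Bs s l r b (m + 2))
      (fun y hy => by simpa [Bs_map φ e] using hy) hx)



end map

section ofVar
open N255.Wv

variable {A B A' B' : ℕ → Set X} (h : Lr l r) (V : Var k 0 A B) (V' : Var k 0 A' B') (K : ℕ)
  (hA : ∀ m, A m = As s l r true m) (hB : ∀ m, B m = Bs s l r true m)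
  (hA' : ∀ m, A' m = As s l r false m) (hB' : ∀ m, B' m = Bs s l r false m)

theorem var_ind {K : ℕ} (x : V.Ix K → k) (hx : ∀ q, x q ≠ 0 → Var.sc q = m)
    (e : ∑ q, x q • Var.cl q ∈ BP k (B (m + 2)) k 1) (q : V.Ix K) : x q = 0 := by
  by_contra c
  obtain ⟨a, j⟩ := q
  obtain rfl : (a : ℕ) = m := hx _ c
  refine c (V.ind a (fun j => x ⟨a, j⟩) ?_ j)
  rwa [Fintype.sum_sigma, Finset.sum_eq_single a] at e
  · refine fun b _ hb => Finset.sum_eq_zero fun i _ => ?_
    by_cases p : x ⟨b, i⟩ = 0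
    · rw [p, zero_smul]
    · exact absurd (Fin.ext (hx _ p)) hb
  · simp

/-- the flat family given by the variables of the two sides -/
def Wv.ofVar : Wv k s l r (K + 1) (V.Ix K ⊕ V'.Ix K) where
  sd := Sum.elim (fun _ => true) fun _ => false
  sc := Sum.elim Var.sc Var.sc
  h := Sum.elim Var.cl Var.cl
  sc_lt := by rintro (q | q); exacts [q.1.2, q.1.2]
  mem := by
    rintro (q | q)
    · exact hB _ ▸ Var.cl_mem q
    · exact hB' _ ▸ Var.cl_mem q
  van := by
    rintro (q | q) m c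
    · exact hA _ ▸ Var.cl_van' (fun _ _ e => by rw [hA, hA]; exact h.As_mono e) q c
    · exact hA' _ ▸ Var.cl_van' (fun _ _ e => by rw [hA', hA']; exact h.As_mono e) q c
  span := by
    rintro (_ | _) m c φ hφ
    · obtain ⟨x, h1, h2⟩ := Var.span (V := V') (K := K) (fun _ _ e => by
        rw [hB', hB']; exact h.Bs_anti e) (Nat.lt_succ_iff.1 c) (hB' _ ▸ hφ)
      refine ⟨Sum.elim 0 x, ?_, by simpa [hB'] using h2⟩
      rintro (q | q) p
      exacts [(p rfl).elim, ⟨rfl, not_lt.1 fun a => p (h1 q a)⟩]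
    · obtain ⟨x, h1, h2⟩ := Var.span (V := V) (K := K) (fun _ _ e => by
        rw [hB, hB]; exact h.Bs_anti e) (Nat.lt_succ_iff.1 c) (hB _ ▸ hφ)
      refine ⟨Sum.elim x 0, ?_, by simpa [hB] using h2⟩
      rintro (q | q) p
      exacts [⟨rfl, not_lt.1 fun a => p (h1 q a)⟩, (p rfl).elim]
  ind := by
    rintro (_ | _) m x c e
    · have z : ∀ q, x (.inl q) = 0 := fun q => by_contra fun p => by simpa using (c _ p).1
      rintro (q | q)
      exacts [z q, var_ind V' (fun q => x (.inr q)) (fun q p => (c _ p).2)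
        (by simpa [z, hB'] using e) q]
    · have z : ∀ q, x (.inr q) = 0 := fun q => by_contra fun p => by simpa using (c _ p).1
      rintro (q | q)
      exacts [var_ind V (fun q => x (.inl q)) (fun q p => (c _ p).2)
        (by simpa [z, hB] using e) q, z q]




end ofVar

end Crest.Agent.N255.Wz

end
end

-- ▼ part N255/Wv/En
section

/-!
# Row 255 (helper77): windows and wall variables on the end structure
-/

set_option autoImplicit false
open Set

noncomputable section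

namespace Crest.Agent.N255.Wv

open Tp Wn En Pt Lv _root_.N255.Core

variable {ι : Type} {F : Subgroup (FreeGroup ι)} (ka : Wo F → Bool)

/-- the class of an oriented edge -/
def oc (e : Ed ι) : Wo F × Bool := (cl F e, tk ka e)

/-- the representative of a class (`true`: the `M` side lies behind) -/
def orp (a : Wo F × Bool) : Ed ι := if a.2 = true then rk ka a.1 else rev (rk ka a.1)

/-- the translation from the representative -/
def otf (e : Ed ι) : F := Classical.choose (exists_rk ka (ek ka e))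

theorem ek_rev (e : Ed ι) : ek ka (rev e) = ek ka e := by
  cases h : tk ka e
  · rw [ek_false ka h, ek_true ka (by rw [tk_rev, h]; rfl)]
  · rw [ek_true ka h, ek_false ka (by rw [tk_rev, h]; rfl), rev_rev]

theorem otf_rev (e : Ed ι) : otf ka (rev e) = otf ka e := by simp only [otf, ek_rev]

theorem otf_rk (e : Ed ι) : (otf ka e).1 • rk ka (cl F e) = ek ka e := by
  have : (otf ka e).1 • rk ka (cl F (ek ka e)) = ek ka (ek ka e) :=
    Classical.choose_spec (exists_rk ka (ek ka e))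
  rwa [cl_ek, ek_true ka (tk_ek ka e)] at this

theorem oc_rev (e : Ed ι) : oc ka (rev e) = (cl F e, !tk ka e) := by rw [oc, cl_rev, tk_rev]

theorem oc_orp (a : Wo F × Bool) : oc ka (orp ka a) = a := by
  obtain ⟨a, _ | _⟩ := a
  · simp [orp, oc_rev]
  · simp [orp, oc]

theorem otf_orp (e : Ed ι) : (otf ka e).1 • orp ka (oc ka e) = e := by
  have := otf_rk ka e
  cases h : tk ka e
  · rw [ek_false ka h] at this
    simp only [orp, oc, h, Bool.false_eq_true, if_false]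
    rw [← rev_smul, this, rev_rev]
  · rw [ek_true ka h] at this
    simpa only [orp, oc, h, if_true] using this

/-- levels of the oriented classes -/
def olv (l r : Wo F → ℕ → ℝ) (a : Wo F × Bool) (m : ℕ) : ℝ := if a.2 = true then l a.1 m else 1 - r a.1 m

variable {S : Type} [DecidableEq ι] [MulAction (FreeGroup ι) S] {w : Wl ι S} {X k : Type}
  [TopologicalSpace X] [Field k] [MulAction F X] {i : ℕ}

/-- the layout given by windows `l a`, `r a` for the level functions of the representatives `rk ka a` -/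
def lay (N : Lev w F X) (l r : Wo F → ℕ → ℝ) (hw : ∀ a, Win k i (N.s (rk ka a)) (l a) (r a))
    (ht : ∀ a, Tm k i (N.s (rk ka a)) (l a 0) (r a 0)) (h0 : ∀ a, 0 ≤ l a 0) (h1 : ∀ a, r a 0 ≤ 1) :
    Lay k i F X (Ed ι) (Wo F × Bool) where
  s := N.s
  c := oc ka
  rep := orp ka
  tf := otf ka
  l := olv l r
  r := olv r l
  s_smul := N.s_smul
  c_smul f e := Prod.ext (cl_smul f e) (tk_smul ka f e)
  c_rep := oc_orp ka
  tf_rep := otf_orp ka
  win := by
    rintro ⟨a, _ | _⟩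
    · exact (hw a).rev (N.s_rev _)
    · exact hw a
  tm := by
    rintro ⟨a, _ | _⟩
    · exact (ht a).rev (N.s_rev _)
    · exact ht a
  l0 := by
    rintro ⟨a, _ | _⟩
    · exact sub_nonneg.2 (h1 a)
    · exact h0 a
  r0 := by
    rintro ⟨a, _ | _⟩
    · exact sub_le_self _ (h0 a)
    · exact h1 a

omit [DecidableEq ι] in
theorem olv_rev (l r : Wo F → ℕ → ℝ) (e : Ed ι) (m : ℕ) :
    olv l r (oc ka (rev e)) m = 1 - olv r l (oc ka e) m := by
  rw [oc_rev, oc]
  cases tk ka e <;> simp [olv]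

section lay

variable {ka} {N : Lev w F X} {l r : Wo F → ℕ → ℝ} {hw : ∀ a, Win k i (N.s (rk ka a)) (l a) (r a)}
  {ht : ∀ a, Tm k i (N.s (rk ka a)) (l a 0) (r a 0)} {h0 : ∀ a, 0 ≤ l a 0} {h1 : ∀ a, r a 0 ≤ 1}


theorem lay_B_rev (e : Ed ι) (m : ℕ) : (lay ka N l r hw ht h0 h1).B (rev e) m =
    hi (N.s e) (olv l r (oc ka e) m) :=
  (congrArg (lo (N.s (rev e))) (olv_rev ka r l e m)).trans (Wv.lo_rev (N.s_rev e) _)

theorem lay_nx {e e' : Ed ι} (h : Bey (rev e) e') : (lay ka N l r hw ht h0 h1).Nx e (rev e') :=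
  fun x => by
    have := N.s_bey _ _ x h
    show N.s e x + 1 ≤ N.s (rev e') x
    rw [N.s_rev] at this ⊢
    linarith


end lay

variable [T2Space X] [ChartedSpace (EE 4) X] (E : End w F k X) (M : Md w) {O : Ori k 3 X} (hO : O.ND)
  (hX : Acy k (univ : Set X) univ)
include M hO hX

theorem tm_end (hi : i ≤ 1) (e : Ed ι) {a b : ℝ} (ha : 0 ≤ a) (hb : b ≤ 1) : Tm k i (E.s e) a b :=
  ⟨fun _ _ h1 h2 h3 => phi_lo E M hO hX e (ha.trans h1) h2 (h3.trans hb) hi,
    fun _ _ h1 h2 h3 => phi_hi E M hO hX e (ha.trans h1) h2 (h3.trans hb) hi⟩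

/-- windows in prescribed intervals, with further dense properties -/
theorem exists_win_end (hi : i ≤ 1) (a b : Wo F → ℝ) (ha : ∀ c, 0 ≤ a c) (hab : ∀ c, a c < b c)
    (hb : ∀ c, b c ≤ 1) (Q : Wo F → ℕ → ℝ → ℝ → ℝ → ℝ → Prop)
    (hQ : ∀ c n l r, a c ≤ l → l < r → r ≤ b c → Wd.DenseIn l r (Q c n l r)) :
    ∃ l r : Wo F → ℕ → ℝ, (∀ c, l c 0 = a c) ∧ (∀ c, r c 0 = b c) ∧
      (∀ c, Win k i (E.s (rk ka c)) (l c) (r c)) ∧ (∀ c, Tm k i (E.s (rk ka c)) (l c 0) (r c 0)) ∧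
      ∀ c n, Q c n (l c n) (r c n) (l c (n + 1)) (r c (n + 1)) := by
  choose l r h1 h2 h3 h4 using fun c =>
    (tm_end E M hO hX hi (rk ka c) (ha c) (hb c)).exists_win (hab c) (Q c) (hQ c)
  exact ⟨l, r, h1, h2, h3, fun c => by
    rw [h1, h2]; exact tm_end E M hO hX hi _ (ha c) (hb c), h4⟩

/-- **windows and variables** -/
theorem exists_fam_end [Finite ι] [F.FiniteIndex] [ContinuousConstSMul F X] (hi : i ≤ 1)
    (a b : Wo F → ℝ) (ha : ∀ c, 0 ≤ a c) (hab : ∀ c, a c < b c) (hb : ∀ c, b c ≤ 1) :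
    ∃ (l r : Wo F → ℕ → ℝ) (hw : ∀ c, Win k i (E.s (rk ka c)) (l c) (r c))
      (ht : ∀ c, Tm k i (E.s (rk ka c)) (l c 0) (r c 0)) (h0 : ∀ c, 0 ≤ l c 0) (h1 : ∀ c, r c 0 ≤ 1),
      (∀ c, l c 0 = a c) ∧ (∀ c, r c 0 = b c) ∧ Nonempty (Fam (lay ka E.toLev l r hw ht h0 h1)) := by
  obtain ⟨l, r, h1, h2, h3, h4, -⟩ := exists_win_end ka E M hO hX hi a b ha hab hb
    (fun _ _ _ _ _ _ => True) fun _ _ _ _ _ _ _ => Wd.DenseIn.triv
  exact ⟨l, r, h3, h4, fun c => h1 c ▸ ha c, fun c => h2 c ▸ hb c, h1, h2, Lay.exists_fam _⟩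

end Crest.Agent.N255.Wv

end
end

-- ▼ part N255/Wz/Sys

/-!
# Row 255 (helper84): the walls exist (`WallS`)
-/

set_option autoImplicit false
open Set Module

noncomputable section

namespace Crest.Agent.N255.Wz

open Tp Wn Wi Nv Pt Lv En _root_.N255.Core

theorem ext_sum {k B J : Type} [Field k] [Fintype B] [Fintype J] (ι : B → J) (y : B → k) :
    ∃ x : J → k, (∀ j, x j ≠ 0 → ∃ b, y b ≠ 0 ∧ j = ι b) ∧
      ∀ {M : Type} [AddCommGroup M] [Module k M] (h : J → M), ∑ j, x j • h j = ∑ b, y b • h (ι b) := by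
  classical
  refine ⟨fun j => ∑ b, if j = ι b then y b else 0, fun j q => ?_, fun h => ?_⟩
  · obtain ⟨b, -, hb⟩ := Finset.exists_ne_zero_of_sum_ne_zero q
    split_ifs at hb with c
    exacts [⟨b, hb, c⟩, (hb rfl).elim]
  · simp only [Finset.sum_smul, ite_smul, zero_smul]
    rw [Finset.sum_comm]
    simp

section two
open N255.Wv

variable {X : Type} [TopologicalSpace X] {s : C(X, ℝ)} {l r : ℕ → ℝ} {k : Type} [Field k]
  {A B : Bool → ℕ → Set X} (h : Lr l r) (V : ∀ b, Var k 0 (A b) (B b)) (K : ℕ)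
  (hA : ∀ b m, A b m = As s l r b m) (hB : ∀ b m, B b m = Bs s l r b m)

/-- the flat family given by the variables of the two sides -/
def Wv.two : Wv k s l r (K + 1) (Σ b, (V b).Ix K) where
  sd j := j.1
  sc j := Var.sc j.2
  h j := Var.cl j.2
  sc_lt j := j.2.1.2
  mem j := hB _ _ ▸ Var.cl_mem j.2
  van j _ c := hA _ _ ▸ Var.cl_van' (fun _ _ e => by rw [hA, hA]; exact h.As_mono e) j.2 c
  span b m c φ hφ := by
    obtain ⟨y, h1, h2⟩ := Var.span (V := V b) (K := K) (fun _ _ e => by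
      rw [hB, hB]; exact h.Bs_anti e) (Nat.lt_succ_iff.1 c) (hB _ _ ▸ hφ)
    obtain ⟨x, a1, a2⟩ := ext_sum (J := Σ b, (V b).Ix K) (Sigma.mk b) y
    refine ⟨x, fun j q => ?_, by rw [a2, ← hB]; exact h2⟩
    obtain ⟨i, p, rfl⟩ := a1 j q
    exact ⟨rfl, not_lt.1 fun a => p (h1 i a)⟩
  ind b m x c e := by
    rintro ⟨b', q⟩
    by_contra p
    obtain rfl : b' = b := (c _ p).1
    refine p (var_ind (V b') (fun q => x ⟨b', q⟩) (fun q p => (c _ p).2) ?_ q)
    rwa [Fintype.sum_sigma, Finset.sum_eq_single b', ← hB] at e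
    · refine fun b _ hb => Finset.sum_eq_zero fun i _ => ?_
      by_cases p : x ⟨b, i⟩ = 0
      · rw [p, zero_smul]
      · exact absurd (c _ p).1 hb
    · simp

theorem card_two (m : ℕ) : (Finset.univ.filter fun j : Σ b, (V b).Ix K => Var.sc j.2 ≤ m).card ≤
    ∑ b, ∑ a ∈ Finset.range (m + 1), (V b).n a := by
  classical
  refine le_trans (le_of_eq ?_) (Finset.sum_le_sum fun b _ => Var.card_le (V := V b) (K := K) m)
  simp only [Finset.card_filter, Fintype.sum_sigma (fun j : Σ b, (V b).Ix K => _)]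

variable {F J Cl : Type} [Group F] [MulAction F X] [MulAction F J] [ContinuousConstSMul F X]
  {L : Lay k 0 F X J Cl} (W : Fam L)

theorem transfer {e e' : J} (h : L.Nx e e') {a a' : Cl} {f f' : F} (h1 : L.c e = a) (h2 : L.c e' = a')
    (h3 : L.tf e = f) (h4 : L.tf e' = f') (m : ℕ) (j : Fin ((W.V a).n m)) :
    ∃ x : Fin ((W.V a').n 0) → k, (∀ b, x b ≠ 0 → m = 0 ∧ W.dp a' 0 b < W.dp a m j) ∧
      pull k (iv X f : C(X, X)) ((W.V a).h m j) -
        ∑ b, x b • pull k (iv X f' : C(X, X)) ((W.V a').h 0 b) ∈ BP k (L.B e' 2) k 1 := by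
  subst h1 h2 h3 h4
  exact W.transfer h m j

end two

open Ma (Geo Ty Wd Sys F3 me)

/-- existence of normal forms -/
def NfS (k X : Type) [Field k] [TopologicalSpace X] : Prop :=
  ∀ (cv : Set (Set X)), Le.Ov cv → ∀ (s : C(X, ℝ)) (l r : ℕ → ℝ), Lr l r → ∀ (n : ℕ) (J : Type)
    [Fintype J] (V : Wv k s l r n J), ∃ H lam E, Ma.Nf cv (Ma.zs s l r n) n V.ct V.sc H lam E

section nf
variable {X : Type} [TopologicalSpace X] {s : C(X, ℝ)} {cv : Set (Set X)}
  {l r : ℕ → ℝ} {n m i d : ℕ} {k : Type} [Field k]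

theorem zs_eq (hi : i ≤ n) : Ma.zs s l r n i = zo s l r n '' Tw n i := by
  ext U
  constructor
  · rintro (rfl | ⟨z, a, b, rfl | rfl⟩)
    · exact ⟨n, ⟨hi, by omega⟩, zo_mid⟩
    · exact ⟨z, ⟨a, by omega⟩, zo_lt b⟩
    · exact ⟨2 * n - z, ⟨by omega, by omega⟩, zo_gt b⟩
  · rintro ⟨z, ⟨a, b⟩, rfl⟩
    rcases lt_trichotomy z n with c | rfl | c
    · exact .inr ⟨z, a, c, .inl (zo_lt c)⟩
    · exact .inl zo_mid
    · refine .inr ⟨2 * n - z, by omega, by omega, .inr ?_⟩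
      rw [← zo_gt (n := n) (by omega)]; congr 1; omega

theorem Lr.sUnion_zs (h : Lr l r) (hi : i ≤ n) : ⋃₀ Ma.zs s l r n i = win s (l i) (r i) := by
  rw [zs_eq hi, sUnion_image, h.iUnion_zo hi]

theorem zs_open {U : Set X} (h : U ∈ Ma.zs s l r n i) : IsOpen U := by
  rcases h with rfl | ⟨z, -, -, rfl | rfl⟩ <;> exact isOpen_win


theorem Zw_eq (hi : i ≤ n) : Zw cv s l r n i = (Sm (Ma.zs s l r n i)).inf (Sm cv) :=
  Tr.sb_ext fun _ σ => by
    rw [mem_Zw, zs_eq hi]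
    exact ⟨fun ⟨z, a, b⟩ => ⟨⟨_, ⟨z, a, rfl⟩, b.1⟩, b.2⟩, fun ⟨⟨_, ⟨z, a, e⟩, b⟩, c⟩ => ⟨z, a, e ▸ b, c⟩⟩

theorem vs_zs (hi : i ≤ n) : Le.vs k cv (Ma.zs s l r n i) d = (Zw cv s l r n i).van k k d := by
  rw [Zw_eq hi]

theorem nfS (h2 : Hc0 k X k 2) : NfS k X := fun cv o s l r h n J _ V => by
  obtain ⟨H, lam, E, a⟩ := Le.exists_nf h o h2 V
  have f2 : ∀ i < n, ∀ f ∈ Le.vs k cv (Ma.zs s l r n i) 2,
      H f ∈ Le.vs k cv (Ma.zs s l r n (i + 1)) 1 ∧ ∀ j, i ≤ V.sc j → lam j f = 0 := fun i hi => by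
    rw [vs_zs hi.le, vs_zs hi]; exact a.fl i hi
  refine ⟨H, lam, E, a.cc, a.nf, fun U hU => ?_, fun i _ hi f hf => (f2 i hi f hf).1,
    fun i j _ hi f hf => (f2 i (hi.trans (V.sc_lt j)) f hf).2 j hi.le, (vs_zs n.zero_le).trans_le a.low,
    fun f hf => (a.zero f ((vs_zs n.zero_le).le hf)).1, f2⟩
  rw [zs_eq n.zero_le] at hU
  obtain ⟨z, hz, rfl⟩ := hU
  exact a.zn z (Tw_le hz)

end nf

variable {F : Subgroup F3} {S : Type} [MulAction F3 S] {X : Type} [TopologicalSpace X]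
  [MulAction F X] [ContinuousConstSMul F X] {k : Type} [Field k]

theorem smul_inj {f f' : F} {e : Ed (Fin 3)} (h : f.1 • e = f'.1 • e) : f = f' :=
  Subtype.ext (mul_right_cancel (congrArg L.v h))

variable {ka : Wo F → Bool} {c : Wo F} {e : Ed (Fin 3)} {o : Bool} {f : F}

theorem oc_of (h : f.1 • rk ka c = me e o) : N255.Wv.oc ka e = (c, o) := by
  have h1 := congrArg (cl F) h
  have h2 := congrArg (tk ka) h
  rw [cl_smul, cl_rk] at h1
  rw [tk_smul, tk_rk] at h2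
  cases o
  · rw [Ma.me_false, cl_rev] at h1
    rw [Ma.me_false, tk_rev] at h2
    exact Prod.ext h1.symm (show tk ka e = false by simpa using h2.symm)
  · exact Prod.ext h1.symm h2.symm

theorem otf_of (h : f.1 • rk ka c = me e o) : N255.Wv.otf ka e = f := by
  have h1 := oc_of h
  have h2 := N255.Wv.otf_rk ka e
  rw [show cl F e = c from congrArg Prod.fst h1, ← Ma.me_tk,
    show tk ka e = o from congrArg Prod.snd h1, ← h] at h2
  exact smul_inj h2

theorem pull_iv {a b : Co k 1 X} (h : Tr.pl (Uc.tr f) a = b) :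
    pull k (N255.Wv.iv X f : C(X, X)) b = a := by
  subst h
  exact funext fun σ => congrArg a (ContinuousMap.ext fun x => smul_inv_smul f (σ x))

variable {g : Geo F k S X} {u R₀ : ℝ} {n : ℕ} {J : Type} [Fintype J] {τ : Ty J}

/-- a wall from the flat family, seen from the `M` side -/
theorem exists_wd (hN : NfS k X) {l r : ℕ → ℝ} (win : N255.Wv.Win k 0 (g.E.s e) l r)
    (V : Wv k (g.E.s e) l r n J) (dp : J → ℕ) {a b : ℝ} (u0 : 0 < u) (big : g.E.toLev.Big u R₀)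
    (ua : u ≤ a) (al : a < l 0) (rb : r 0 < b) (bu : b ≤ 1 - u) {η hw : Co k 1 X}
    (bz : Or.Bz g.M g.E (rev e) (1 - a) R₀ η hw) :
    ∃ ω : Wd g u R₀ n ⟨V.sd, V.sc, dp⟩ e true, ω.l = l ∧ ω.r = r ∧ ω.h = V.h := by
  obtain ⟨H, lam, E, nf⟩ := hN g.E.cv ⟨g.E.cv_open, univ_subset_iff.1 g.E.cv_cover⟩ _ l r win.lr n J V
  exact ⟨{
    l := l, r := r, a := a, b := b, u0 := u0, big := big, ua := ua, al := al, rb := rb, bu := bu
    win := win, h := V.h, sc_lt := V.sc_lt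
    mem := fun j => by simp only [beq_true]; exact V.mem j
    van := fun j => by simp only [beq_true]; exact V.van j
    span := fun j => by simp only [beq_true]; exact V.span j
    η := η, hw := hw, bz := bz, H := H, lam := lam, E := E
    nf := by simp only [beq_true]; exact nf }, rfl, rfl, rfl⟩

theorem rel_l {ω : Wd g u R₀ n τ (rk ka c) true} {ω' : Wd g u R₀ n τ e o} (h : Wd.Rel f ω ω')
    (m : ℕ) : ω'.l m = if o = true then ω.l m else 1 - ω.r m := by
  cases o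
  · have := congrFun h.r m
    simp only [Wd.rm, Bool.false_eq_true, if_false, if_true] at this ⊢
    linarith
  · exact congrFun h.l m

variable [T2Space X] [ChartedSpace (EE 4) X] [F.FiniteIndex]

/-- **the walls exist** -/
theorem walls (hN : NfS k X) (g : Geo F k S X) :
    ∃ (ka : Wo F → Bool) (u R₀ : ℝ) (N : ℕ) (cnt : ℕ → ℕ), ∀ n, 0 < n →
      ∃ (J : Wo F → Type) (_ : ∀ c, Fintype (J c)) (τ : ∀ c, Ty (J c)),
        Nonempty (Sys g ka u R₀ n τ) ∧ (∀ c j, (τ c).dp j ≤ N) ∧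
          ∀ c m, (Finset.univ.filter fun j => (τ c).sc j ≤ m).card ≤ cnt m := by
  obtain ⟨o, -, o2, o3⟩ := Or.exists_or g.M g.E g.nd g.acy g.deg
  let ka : Wo F → Bool := fun c => o (rp c)
  have hk : ∀ c, N255.Wv.Ext g.E.toLev g.M k (rev (rk ka c)) (1 - 2 / 3) := fun c => by
    rw [show (1 - 2 / 3 : ℝ) = 1 / 3 by norm_num]
    refine o3 _ ?_
    unfold rk
    split_ifs with p
    · rwa [rev_rev]
    · rw [o2]; simpa using p
  choose ρ hρ using fun c => Or.exists_bz g.M g.E g.nd g.acy g.deg (hk c) (by norm_num)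
  obtain ⟨R₁, h1⟩ := g.E.toLev.exists_big (ε := 1 / 10) (by norm_num)
  obtain ⟨R₂, h2⟩ := (Set.finite_range ρ).bddAbove
  obtain ⟨l, r, hw, ht, h0, h1', hl, hr, ⟨W⟩⟩ := N255.Wv.exists_fam_end ka g.E g.M g.nd g.acy
    (Nat.zero_le 1) (fun _ => 3 / 4) (fun _ => 4 / 5) (fun _ => by norm_num) (fun _ => by norm_num)
    fun _ => by norm_num
  let _ := Fintype.ofFinite (Wo F)
  refine ⟨ka, 1 / 10, max R₁ R₂, W.N,
    fun m => ∑ c, ∑ b, ∑ a ∈ Finset.range (m + 1), (W.V (c, b)).n a, fun n hn => ?_⟩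
  obtain ⟨K, rfl⟩ : ∃ K, n = K + 1 := ⟨n - 1, by omega⟩
  let V : ∀ c, Wv k (g.E.s (rk ka c)) (l c) (r c) (K + 1) (Σ b, (W.V (c, b)).Ix K) := fun c =>
    Wv.two (hw c).lr (fun b => W.V (c, b)) K
      (by rintro (_ | _) m; exacts [N255.Wv.lo_rev (g.E.s_rev _) _, rfl])
      (by rintro (_ | _) m; exacts [N255.Wv.lo_rev (g.E.s_rev _) _, rfl])
  choose η hw' bz using fun c => hρ c (max R₁ R₂) ((h2 ⟨c, rfl⟩).trans (le_max_right _ _))
  choose ω w1 w2 w3 using fun c => exists_wd hN (hw c) (V c) (fun j => W.dp (c, j.1) j.2.1 j.2.2)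
    (b := 5 / 6) (by norm_num) (h1 _ (le_max_left R₁ R₂)) (by norm_num) (by rw [hl]; norm_num)
    (by rw [hr]; norm_num) (by norm_num) (bz c)
  refine ⟨_, _, _, ⟨⟨ω, ?_⟩⟩, fun c j => W.dp_le _ _ _, fun c m => (card_two _ K m).trans
    (Finset.single_le_sum (f := fun c => ∑ b, ∑ a ∈ Finset.range (m + 1), (W.V (c, b)).n a)
      (fun _ _ => Nat.zero_le _) (Finset.mem_univ c))⟩
  rintro c c' f f' e e' o o' ω₁ ω₂ r1 r2 hb ⟨b, q⟩ (rfl : b = o)
  have e2 : N255.Wv.oc ka (rev e') = (c', !o') := by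
    rw [N255.Wv.oc_rev]; exact congrArg (fun a : Wo F × Bool => (a.1, !a.2)) (oc_of r2.ed)
  obtain ⟨y, y1, y2⟩ := transfer W (N255.Wv.lay_nx hb) (oc_of r1.ed) e2 (otf_of r1.ed)
    ((N255.Wv.otf_rev ka e').trans (otf_of r2.ed)) q.1 q.2
  obtain ⟨x, x1, x2⟩ := ext_sum (J := Σ b, (W.V (c', b)).Ix K) (fun i => ⟨!o', ⟨0, K.succ_pos⟩, i⟩) y
  refine ⟨x, fun j p => ?_, ?_⟩
  · obtain ⟨i, p', rfl⟩ := x1 j p
    exact ⟨Bool.not_ne_self o', rfl, y1 i p'⟩
  · rw [N255.Wv.lay_B_rev, oc_of r2.ed] at y2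
    rw [x2, rel_l r2, w1, w2, ← pull_iv (r1.h _), w3]
    simp only [← pull_iv (r2.h _), w3]
    exact y2

/-- **`WallS`** -/
theorem wallS : Ma.WallS := fun _ _ _ _ _ _ _ _ _ _ _ g =>
  walls (nfS (hc0 (d := 3) g.nd g.acy (by omega) (by omega))) g

end Crest.Agent.N255.Wz

end
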